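import Vale.Agent.P226.Main
import Vale.Agent.P226.K4
import Vale.Agent.P226.Five
import Vale.Agent.P226.Six
import Vale.Agent.P226.Big

/-!
# P226: the Gaussian propeller conjecture, stated without auxiliary definitions
-/

open MeasureTheory

namespace Vale.Agent.Results.P226.GaussianPropeller

/-- Let `γ` be the standard Gaussian measure of `ℝ^d`. Every partition of `ℝ^d` into `k`
measurable cells (up to null sets) has sum of squared norms of the first moments at most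
`9 / (8 π)`, and for `d ≥ 2`, `k ≥ 3` the value `9 / (8 π)` is attained by a partition. -/
theorem result (d k : ℕ) (γ : Measure (EuclideanSpace ℝ (Fin d)))
    (hγ : γ = (volume : Measure (EuclideanSpace ℝ (Fin d))).withDensity
      (fun x => ENNReal.ofReal ((2 * Real.pi) ^ (-(d : ℝ) / 2) * Real.exp (-‖x‖ ^ 2 / 2)))) :
    (∀ A : Fin k → Set (EuclideanSpace ℝ (Fin d)), (∀ i, MeasurableSet (A i)) →
      (∀ i j, i ≠ j → γ (A i ∩ A j) = 0) → γ (⋃ i, A i)ᶜ = 0 →
      ∑ i, ‖∫ x in A i, x ∂γ‖ ^ 2 ≤ 9 / (8 * Real.pi)) ∧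
    (2 ≤ d → 3 ≤ k → ∃ A : Fin k → Set (EuclideanSpace ℝ (Fin d)),
      (∀ i, MeasurableSet (A i)) ∧ (∀ i j, i ≠ j → γ (A i ∩ A j) = 0) ∧ γ (⋃ i, A i)ᶜ = 0 ∧
      ∑ i, ‖∫ x in A i, x ∂γ‖ ^ 2 = 9 / (8 * Real.pi)) := by
  have hT : ∀ (d : ℕ) (ι : Type) [Fintype ι] [DecidableEq ι],
      4 ≤ Fintype.card ι → ∀ z : ι → EuclideanSpace ℝ (Fin d), ¬ Vale.Agent.P226.Crit z := by
    intro d ι _ _ h4 z hz
    rcases Nat.lt_or_ge (Fintype.card ι) 7 with h7 | h7
    · have hc : Fintype.card ι = 4 ∨ Fintype.card ι = 5 ∨ Fintype.card ι = 6 := by omega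
      rcases hc with h | h | h
      · exact Vale.Agent.P226.no_crit4 hz h
      · exact Vale.Agent.P226.no_crit5 hz h
      · exact Vale.Agent.P226.no_crit6 hz h
    · exact Vale.Agent.P226.no_crit7 hz h7
  have hU := Vale.Agent.P226.upper_of hT d k
  subst hγ
  constructor
  · intro A h1 h2 h3
    exact hU A ⟨h1, h2, h3⟩
  · intro hd hk
    obtain ⟨A, hA, hv⟩ := Vale.Agent.P226.exists_lower hd hk
    exact ⟨A, hA.measurable, hA.disjoint, hA.cover, le_antisymm (hU A hA) hv⟩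

end Vale.Agent.Results.P226.GaussianPropeller
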