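import Vale.Agent.P226.Main
import Vale.Agent.P226.K4
import Vale.Agent.P226.Five
import Vale.Agent.P226.Six
import Vale.Agent.P226.Big

/-!
# P226: the Gaussian propeller conjecture
-/

open MeasureTheory

namespace Vale.Agent.Results.P226.Propeller

open Vale.Agent.P226

/-- For all `d`, `k` and every measurable partition of `ℝ^d` into `k` cells the sum of the squared
norms of the Gaussian first moments of the cells is at most `9 / (8 π)`; for `d ≥ 2`, `k ≥ 3` the
supremum over all partitions is exactly `9 / (8 π)`. -/
theorem result :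
    (∀ (d k : ℕ) (A : Fin k → Set (EuclideanSpace ℝ (Fin d))), IsPartition d k A →
      momentSum d k A ≤ 9 / (8 * Real.pi)) ∧
    (∀ d k : ℕ, 2 ≤ d → 3 ≤ k → maxMomentSum d k = 9 / (8 * Real.pi)) := by
  have hT : ∀ (d : ℕ) (ι : Type) [Fintype ι] [DecidableEq ι],
      4 ≤ Fintype.card ι → ∀ z : ι → EuclideanSpace ℝ (Fin d), ¬ Crit z := by
    intro d ι _ _ h4 z hz
    rcases Nat.lt_or_ge (Fintype.card ι) 7 with h7 | h7
    · have hc : Fintype.card ι = 4 ∨ Fintype.card ι = 5 ∨ Fintype.card ι = 6 := by omega
      rcases hc with h | h | h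
      · exact no_crit4 hz h
      · exact no_crit5 hz h
      · exact no_crit6 hz h
    · exact no_crit7 hz h7
  exact propeller_of hT

end Vale.Agent.Results.P226.Propeller
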